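import Vale.Agent.P237.Gen.Contact.John
import Vale.Agent.P237.Gen.Contact.Kappa
import Vale.Agent.P248.Balanced.Linear
import Vale.Agent.P248.Balanced.Quarter

/-!
# Explicit volume product bounds in low dimensions from the one-step inequality

The step is applied to a body in John position and to its polar; the product of the two
inequalities no longer depends on the volume.
-/

open MeasureTheory Set
open scoped ENNReal Nat RealInnerProductSpace

noncomputable section

namespace Vale.Agent.P248.Universal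

open Balanced
open Vale.Agent.P237.Every (kappa)
open Vale.Agent.P237.Gen.Contact (kappa_eq kappa_add_two exists_johnPosition)

/-- One step of the dimension induction. -/
def StepBound : Prop :=
  ∀ (n : ℕ), 1 ≤ n → ∀ (K : Set (Fin (n + 1) → ℝ)), SymBody K → ∀ (R b : ℝ),
    (∀ x ∈ K, Real.sqrt (∑ i, x i ^ 2) ≤ R) → 0 ≤ b →
    (∀ S : Set (Fin n → ℝ), SymBody S → b ≤ volume.real S * volume.real (polar S)) →
    ((kappa (n + 1) / kappa n) ^ 2 * b) ^ (n + 1) * volume.real K ≤
      kappa (n + 1) * (R * (volume.real K * volume.real (polar K))) ^ (n + 1)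

variable {n : ℕ}

/-- The polar of a symmetric body is one. -/
theorem symBody_polar {K : Set (Fin n → ℝ)} (hK : SymBody K) : SymBody (polar K) := by
  obtain ⟨r, hr, hball⟩ := Metric.isOpen_iff.1 isOpen_interior 0 hK.zero_mem_interior
  obtain ⟨C, hC⟩ := hK.exists_lipschitz
  refine ⟨?_, fun y hy z hz a b ha hb hab x hx => ?_, ?_, fun y hy x hx => ?_⟩
  · refine (isCompact_closedBall (0 : Fin n → ℝ) (2 / r)).of_isClosed_subset ?_ fun y hy => ?_
    · rw [polar_eq hK]; exact isClosed_le hK.continuous_supp continuous_const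
    · rw [mem_closedBall_zero_iff, pi_norm_le_iff_of_nonneg (by positivity)]
      intro i
      have hp : (Pi.single i (r / 2) : Fin n → ℝ) ∈ K := by
        refine interior_subset (hball ?_)
        rw [mem_ball_zero_iff, Pi.norm_single, Real.norm_eq_abs, abs_of_pos (by linarith)]
        linarith
      have h1 := hy _ hp
      have h2 := hy _ (hK.neg_mem _ hp)
      simp [Pi.single_apply] at h1 h2
      rw [Real.norm_eq_abs, le_div_iff₀ hr]
      rcases le_total 0 (y i) with h | h
      · rw [abs_of_nonneg h]; linarith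
      · rw [abs_of_nonpos h]; linarith
  · calc ∑ i, x i * (a • y + b • z) i = a * ∑ i, x i * y i + b * ∑ i, x i * z i := by
          simp [Finset.mul_sum, ← Finset.sum_add_distrib, mul_add, mul_left_comm]
      _ ≤ a * 1 + b * 1 := add_le_add (mul_le_mul_of_nonneg_left (hy x hx) ha)
          (mul_le_mul_of_nonneg_left (hz x hx) hb)
      _ = 1 := by linarith
  · have hsub : {y | supp K y < 1} ⊆ interior (polar K) := by
      refine interior_maximal (fun y hy => ?_) (isOpen_lt hK.continuous_supp continuous_const)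
      rw [polar_eq hK]
      exact le_of_lt (show supp K y < 1 from hy)
    refine ⟨0, hsub ?_⟩
    show supp K 0 < 1
    rw [hK.supp_zero]; exact one_pos
  · simpa using hy _ (hK.neg_mem x hx)

/-- A point separated by a functional is outside the second polar. -/
theorem polar_polar_subset {K : Set (Fin n → ℝ)} (hK : SymBody K) : polar (polar K) ⊆ K := by
  intro x hx
  by_contra hxK
  obtain ⟨f, u, hfK, hfx⟩ :=
    geometric_hahn_banach_closed_point hK.convex hK.compact.isClosed hxK
  have hu : 0 < u := by simpa using hfK 0 hK.zero_mem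
  set y : Fin n → ℝ := fun i => f (Pi.single i 1) / u
  have hf : ∀ z, f z / u = ∑ i, z i * y i := fun z => by
    conv_lhs => rw [pi_eq_sum_univ' z]
    simp [y, Finset.sum_div, mul_div_assoc]
  have hy : y ∈ polar K := fun z hz => by
    rw [← hf z, div_le_one hu]; exact (hfK z hz).le
  have h := hx y hy
  simp only [mul_comm (y _)] at h
  rw [← hf x, div_le_one hu] at h
  linarith

theorem volume_real_pos {K : Set (Fin n → ℝ)} (hK : SymBody K) : 0 < volume.real K :=
  ENNReal.toReal_pos ((isOpen_interior.measure_pos volume hK.interior_nonempty).trans_le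
    (measure_mono interior_subset)).ne' hK.compact.measure_lt_top.ne

/-- The volume product. -/
def product (K : Set (Fin n → ℝ)) : ℝ := volume.real K * volume.real (polar K)

theorem product_pos {K : Set (Fin n → ℝ)} (hK : SymBody K) : 0 < product K :=
  mul_pos (volume_real_pos hK) (volume_real_pos (symBody_polar hK))

theorem product_polar_le {K : Set (Fin n → ℝ)} (hK : SymBody K) :
    product (polar K) ≤ product K := by
  rw [product, product, mul_comm (volume.real K)]
  exact mul_le_mul_of_nonneg_left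
    (measureReal_mono (polar_polar_subset hK) hK.compact.measure_lt_top.ne) measureReal_nonneg

theorem product_image (T : (Fin n → ℝ) ≃ₗ[ℝ] Fin n → ℝ) {K : Set (Fin n → ℝ)} (hK : SymBody K) :
    product (T '' K) = product K := by
  have h := congrArg ENNReal.toReal (volume_mul_suppInt_image T hK)
  rw [(suppInt_eq hK).1, (suppInt_eq (hK.image T)).1] at h
  simp only [ENNReal.toReal_mul, ENNReal.toReal_natCast] at h
  simp only [product, Measure.real]
  have : (n ! : ℝ) ≠ 0 := by positivity
  exact mul_left_cancel₀ this (by linarith)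

theorem kappa_zero : kappa 0 = 1 := by simp [kappa_eq]

theorem kappa_one : kappa 1 = 2 := by
  have h : Real.Gamma (1 / 2 + 1) = 1 / 2 * Real.sqrt Real.pi := by
    rw [Real.Gamma_add_one (by norm_num), Real.Gamma_one_half_eq]
  rw [kappa_eq, pow_one, Nat.cast_one, h]
  have := Real.sqrt_pos.2 Real.pi_pos
  field_simp

theorem four_le_product {K : Set (Fin 1 → ℝ)} (hK : SymBody K) : 4 ≤ product K := by
  have h := mahler_of_equipartite hK (equipartite_of_quarterTurns (τ := id) (fun _ => rfl)
    fun i x hx => by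
      have e : quarterTurn id i x = -x := by
        funext j
        simp [quarterTurn, Subsingleton.elim j i]
      rw [e]
      exact hK.neg_mem x hx)
  simpa [product] using h

/-- The self-improving inequality: John position and polarity remove the volume. -/
theorem pow_le_product (hstep : StepBound) (hn : 1 ≤ n) {K : Set (Fin (n + 1) → ℝ)}
    (hK : SymBody K) {b : ℝ} (hb0 : 0 ≤ b)
    (hb : ∀ S : Set (Fin n → ℝ), SymBody S → b ≤ product S) :
    ((kappa (n + 1) / kappa n) ^ 2 * b) ^ (2 * (n + 1)) ≤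
      kappa (n + 1) ^ 2 * Real.sqrt (n + 1) ^ (n + 1) * product K ^ (2 * n + 1) := by
  obtain ⟨A, hJ⟩ := exists_johnPosition (n := n)
    (X := K) ⟨hK.convex, hK.compact, hK.zero_mem_interior⟩ hK.neg_mem
  set T : (Fin (n + 1) → ℝ) ≃ₗ[ℝ] (Fin (n + 1) → ℝ) :=
    A.symm.trans (WithLp.linearEquiv 2 ℝ (Fin (n + 1) → ℝ)) with hT
  set L := T '' K
  have hL : SymBody L := hK.image T
  have hnorm : ∀ v : EuclideanSpace ℝ (Fin (n + 1)),
      Real.sqrt (∑ i, (WithLp.ofLp v) i ^ 2) = ‖v‖ := fun v => by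
    simp [EuclideanSpace.norm_eq, sq_abs]
  have hout : ∀ x ∈ L, Real.sqrt (∑ i, x i ^ 2) ≤ Real.sqrt (n + 1) := by
    rintro _ ⟨x, hx, rfl⟩
    rw [show T x = WithLp.ofLp (A.symm x) from rfl, hnorm]
    exact hJ.norm_le (show A (A.symm x) ∈ K by simpa using hx)
  have hin : ∀ y ∈ polar L, Real.sqrt (∑ i, y i ^ 2) ≤ 1 := by
    intro y hy
    set q := ∑ i, y i ^ 2
    rcases (Real.sqrt_nonneg q).eq_or_lt with h0 | hpos
    · rw [← h0]; exact zero_le_one
    set v : EuclideanSpace ℝ (Fin (n + 1)) := WithLp.toLp 2 ((Real.sqrt q)⁻¹ • y)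
    have hq : 0 ≤ q := Finset.sum_nonneg fun i _ => sq_nonneg _
    have hv : ‖v‖ ≤ 1 := by
      rw [← hnorm]
      simp only [v, Pi.smul_apply, smul_eq_mul, mul_pow]
      rw [← Finset.mul_sum, inv_pow, Real.sq_sqrt hq, inv_mul_cancel₀ (Real.sqrt_pos.1 hpos).ne',
        Real.sqrt_one]
    have hmem : WithLp.ofLp v ∈ L := by
      refine ⟨A v, hJ.ball (mem_closedBall_zero_iff.2 hv), ?_⟩
      simp [hT]
    have h := hy _ hmem
    simp only [v, Pi.smul_apply, smul_eq_mul, mul_assoc, ← Finset.mul_sum, ← sq] at h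
    rw [inv_mul_le_iff₀ hpos, mul_one] at h
    have hqs : q ≤ Real.sqrt q := h
    nlinarith [Real.sq_sqrt hq]
  have h1 := hstep n hn L hL _ b hout hb0 hb
  have h2 := hstep n hn (polar L) (symBody_polar hL) 1 b hin hb0 hb
  have hP : product L = product K := product_image T hK
  have hκ : 0 ≤ kappa (n + 1) := measureReal_nonneg
  have h2' : ((kappa (n + 1) / kappa n) ^ 2 * b) ^ (n + 1) * volume.real (polar L) ≤
      kappa (n + 1) * product L ^ (n + 1) := by
    refine h2.trans (mul_le_mul_of_nonneg_left ?_ hκ)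
    rw [one_mul]
    exact pow_le_pow_left₀ (product_pos (symBody_polar hL)).le (product_polar_le hL) _
  have hprod := mul_le_mul h1 h2' (by positivity)
    (mul_nonneg hκ (pow_nonneg (mul_nonneg (Real.sqrt_nonneg _) (product_pos hL).le) _))
  have hPK := product_pos hK
  refine le_of_mul_le_mul_right ?_ hPK
  calc _ = ((kappa (n + 1) / kappa n) ^ 2 * b) ^ (n + 1) * volume.real L *
        (((kappa (n + 1) / kappa n) ^ 2 * b) ^ (n + 1) * volume.real (polar L)) := by
        rw [← hP]; simp only [product]; ring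
    _ ≤ _ := hprod
    _ = _ := by
        rw [show volume.real L * volume.real (polar L) = product L from rfl, hP]
        ring

/-- A threshold below the self-improved bound. -/
theorem le_product_of (hstep : StepBound) (hn : 1 ≤ n) {b t : ℝ} (hb0 : 0 ≤ b) (ht : 0 ≤ t)
    (hb : ∀ S : Set (Fin n → ℝ), SymBody S → b ≤ product S)
    (hnum : kappa (n + 1) ^ 2 * Real.sqrt (n + 1) ^ (n + 1) * t ^ (2 * n + 1) ≤
      ((kappa (n + 1) / kappa n) ^ 2 * b) ^ (2 * (n + 1)))
    {K : Set (Fin (n + 1) → ℝ)} (hK : SymBody K) : t ≤ product K := by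
  by_contra hlt
  have hκ : 0 < kappa (n + 1) := by
    rw [kappa_eq]
    exact div_pos (by positivity) (Real.Gamma_pos_of_pos (by positivity))
  have h := hnum.trans (pow_le_product hstep hn hK hb0 hb)
  have h' := pow_lt_pow_left₀ (not_le.1 hlt) (product_pos hK).le (show 2 * n + 1 ≠ 0 by omega)
  have hc : 0 < kappa (n + 1) ^ 2 * Real.sqrt (n + 1) ^ (n + 1) := by positivity
  exact absurd h (not_le.2 (mul_lt_mul_of_pos_left h' hc))

theorem kappa_two : kappa 2 = Real.pi := by
  have h := kappa_add_two 0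
  norm_num [kappa_zero] at h
  linarith

theorem kappa_three : kappa 3 = 4 * Real.pi / 3 := by
  have h := kappa_add_two 1
  norm_num [kappa_one] at h
  linarith

theorem kappa_four : kappa 4 = Real.pi ^ 2 / 2 := by
  have h := kappa_add_two 2
  norm_num [kappa_two] at h
  linarith

theorem kappa_five : kappa 5 = 8 * Real.pi ^ 2 / 15 := by
  have h := kappa_add_two 3
  norm_num [kappa_three] at h
  linarith

theorem kappa_six : kappa 6 = Real.pi ^ 3 / 6 := by
  have h := kappa_add_two 4
  norm_num [kappa_four] at h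
  linarith

theorem kappa_seven : kappa 7 = 16 * Real.pi ^ 3 / 105 := by
  have h := kappa_add_two 5
  norm_num [kappa_five] at h
  linarith

theorem bound_two (hstep : StepBound) {K : Set (Fin 2 → ℝ)} (hK : SymBody K) :
    783 / 100 ≤ product K := by
  refine le_product_of hstep le_rfl (b := 4) (by norm_num) (by norm_num)
    (fun S hS => four_le_product hS) ?_ hK
  have hs : Real.sqrt ((1 : ℕ) + 1 : ℝ) ^ (1 + 1) = 2 := by
    rw [Real.sq_sqrt (by norm_num)]; norm_num
  rw [hs, kappa_one, kappa_two]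
  have h6 : (31415 / 10000 : ℝ) ^ 6 ≤ Real.pi ^ 6 :=
    pow_le_pow_left₀ (by norm_num) (by linarith [Real.pi_gt_d4]) 6
  calc Real.pi ^ 2 * 2 * (783 / 100 : ℝ) ^ (2 * 1 + 1)
      ≤ Real.pi ^ 2 * (31415 / 10000) ^ 6 := by
        rw [mul_assoc]
        exact mul_le_mul_of_nonneg_left (by norm_num) (sq_nonneg _)
    _ ≤ Real.pi ^ 2 * Real.pi ^ 6 := mul_le_mul_of_nonneg_left h6 (sq_nonneg _)
    _ = _ := by ring

theorem bound_three (hstep : StepBound) {K : Set (Fin 3 → ℝ)} (hK : SymBody K) :
    955 / 100 ≤ product K := by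
  refine le_product_of hstep (n := 2) (by norm_num) (b := 783 / 100) (by norm_num) (by norm_num)
    (fun S hS => bound_two hstep hS) ?_ hK
  have hs : Real.sqrt ((2 : ℕ) + 1 : ℝ) ^ (2 + 1) ≤ (17321 / 10000 : ℝ) ^ 3 :=
    pow_le_pow_left₀ (Real.sqrt_nonneg _) (Real.sqrt_le_iff.2 ⟨by norm_num, by norm_num⟩) 3
  rw [kappa_two, kappa_three, show 4 * Real.pi / 3 / Real.pi = (4 / 3 : ℝ) by field_simp]
  calc _ ≤ (4 * (31416 / 10000) / 3) ^ 2 * (17321 / 10000 : ℝ) ^ 3 *
        (955 / 100 : ℝ) ^ (2 * 2 + 1) := by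
        gcongr
        linarith [Real.pi_lt_d4]
    _ ≤ _ := by norm_num

theorem bound_four (hstep : StepBound) {K : Set (Fin 4 → ℝ)} (hK : SymBody K) :
    817 / 100 ≤ product K := by
  refine le_product_of hstep (n := 3) (by norm_num) (b := 955 / 100) (by norm_num) (by norm_num)
    (fun S hS => bound_three hstep hS) ?_ hK
  have hs : Real.sqrt ((3 : ℕ) + 1 : ℝ) = 2 :=
    (Real.sqrt_eq_iff_eq_sq (by norm_num) (by norm_num)).2 (by norm_num)
  rw [hs, kappa_three, kappa_four,
    show Real.pi ^ 2 / 2 / (4 * Real.pi / 3) = 3 * Real.pi / 8 by field_simp; ring]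
  calc _ ≤ ((31416 / 10000 : ℝ) ^ 2 / 2) ^ 2 * 2 ^ (3 + 1) * (817 / 100 : ℝ) ^ (2 * 3 + 1) := by
        gcongr
        linarith [Real.pi_lt_d4]
    _ ≤ ((3 * (31415 / 10000) / 8) ^ 2 * (955 / 100 : ℝ)) ^ (2 * (3 + 1)) := by norm_num
    _ ≤ _ := by gcongr; linarith [Real.pi_gt_d4]

theorem bound_five (hstep : StepBound) {K : Set (Fin 5 → ℝ)} (hK : SymBody K) :
    525 / 100 ≤ product K := by
  refine le_product_of hstep (n := 4) (by norm_num) (b := 817 / 100) (by norm_num) (by norm_num)
    (fun S hS => bound_four hstep hS) ?_ hK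
  have hs : Real.sqrt ((4 : ℕ) + 1 : ℝ) ≤ 22361 / 10000 :=
    Real.sqrt_le_iff.2 ⟨by norm_num, by norm_num⟩
  rw [kappa_four, kappa_five,
    show 8 * Real.pi ^ 2 / 15 / (Real.pi ^ 2 / 2) = (16 / 15 : ℝ) by field_simp; ring]
  calc _ ≤ (8 * (31416 / 10000 : ℝ) ^ 2 / 15) ^ 2 * (22361 / 10000) ^ (4 + 1) *
        (525 / 100 : ℝ) ^ (2 * 4 + 1) := by
        gcongr
        linarith [Real.pi_lt_d4]
    _ ≤ _ := by norm_num

theorem bound_six (hstep : StepBound) {K : Set (Fin 6 → ℝ)} (hK : SymBody K) :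
    266 / 100 ≤ product K := by
  refine le_product_of hstep (n := 5) (by norm_num) (b := 525 / 100) (by norm_num) (by norm_num)
    (fun S hS => bound_five hstep hS) ?_ hK
  have hs : Real.sqrt ((5 : ℕ) + 1 : ℝ) ≤ 24495 / 10000 :=
    Real.sqrt_le_iff.2 ⟨by norm_num, by norm_num⟩
  rw [kappa_five, kappa_six,
    show Real.pi ^ 3 / 6 / (8 * Real.pi ^ 2 / 15) = 5 * Real.pi / 16 by field_simp; ring]
  calc _ ≤ ((31416 / 10000 : ℝ) ^ 3 / 6) ^ 2 * (24495 / 10000) ^ (5 + 1) *
        (266 / 100 : ℝ) ^ (2 * 5 + 1) := by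
        gcongr
        linarith [Real.pi_lt_d4]
    _ ≤ ((5 * (31415 / 10000) / 16) ^ 2 * (525 / 100 : ℝ)) ^ (2 * (5 + 1)) := by norm_num
    _ ≤ _ := by gcongr; linarith [Real.pi_gt_d4]

theorem bound_seven (hstep : StepBound) {K : Set (Fin 7 → ℝ)} (hK : SymBody K) :
    110 / 100 ≤ product K := by
  refine le_product_of hstep (n := 6) (by norm_num) (b := 266 / 100) (by norm_num) (by norm_num)
    (fun S hS => bound_six hstep hS) ?_ hK
  have hs : Real.sqrt ((6 : ℕ) + 1 : ℝ) ≤ 26458 / 10000 :=
    Real.sqrt_le_iff.2 ⟨by norm_num, by norm_num⟩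
  rw [kappa_six, kappa_seven,
    show 16 * Real.pi ^ 3 / 105 / (Real.pi ^ 3 / 6) = (32 / 35 : ℝ) by field_simp; ring]
  calc _ ≤ (16 * (31416 / 10000 : ℝ) ^ 3 / 105) ^ 2 * (26458 / 10000) ^ (6 + 1) *
        (110 / 100 : ℝ) ^ (2 * 6 + 1) := by
        gcongr
        linarith [Real.pi_lt_d4]
    _ ≤ _ := by norm_num

/-- The explicit bounds. -/
theorem bounds (hstep : StepBound) :
    (∀ K : Set (Fin 4 → ℝ), SymBody K → 817 / 100 ≤ volume.real K * volume.real (polar K)) ∧
      (∀ K : Set (Fin 5 → ℝ), SymBody K → 525 / 100 ≤ volume.real K * volume.real (polar K)) ∧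
      (∀ K : Set (Fin 6 → ℝ), SymBody K → 266 / 100 ≤ volume.real K * volume.real (polar K)) ∧
      ∀ K : Set (Fin 7 → ℝ), SymBody K → 110 / 100 ≤ volume.real K * volume.real (polar K) :=
  ⟨fun _ h => bound_four hstep h, fun _ h => bound_five hstep h, fun _ h => bound_six hstep h,
    fun _ h => bound_seven hstep h⟩

end Vale.Agent.P248.Universal
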