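import Vale.Agent.P237.Gen.Contact.Main

/-!
# Gaussian averages over directions
-/

open MeasureTheory Set Filter Metric
open scoped ENNReal RealInnerProductSpace Topology
open Vale.Agent.P237.Gen.Contact (coords measurePreserving_coords norm_coords_sq repr_coords
  exists_basis_first measurableEmbedding_coords)
open Vale.Agent.P237.Every (kappa)

noncomputable section

namespace Vale.Agent.P248.Universal

variable {n : ℕ}

/-- The Euclidean length. -/
def nm (x : Fin n → ℝ) : ℝ := Real.sqrt (∑ i, x i ^ 2)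

/-- The Gaussian weight. -/
def gw (f : Fin n → ℝ) : ℝ := Real.exp (-(∑ i, f i ^ 2) / 2)

theorem nm_nonneg (x : Fin n → ℝ) : 0 ≤ nm x := Real.sqrt_nonneg _

theorem nm_sq (x : Fin n → ℝ) : nm x ^ 2 = ∑ i, x i ^ 2 :=
  Real.sq_sqrt (Finset.sum_nonneg fun i _ => sq_nonneg _)

theorem nm_eq_norm (x : Fin n → ℝ) : nm x = ‖WithLp.toLp 2 x‖ := by
  rw [nm, EuclideanSpace.norm_eq]; simp [sq_abs]

theorem nm_eq_zero {x : Fin n → ℝ} (h : nm x = 0) : x = 0 := by
  rw [nm_eq_norm, norm_eq_zero] at h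
  simpa using congrArg WithLp.ofLp h

theorem continuous_nm : Continuous (nm : (Fin n → ℝ) → ℝ) := by unfold nm; fun_prop

theorem continuous_gw : Continuous (gw : (Fin n → ℝ) → ℝ) := by unfold gw; fun_prop

theorem gw_pos (f : Fin n → ℝ) : 0 < gw f := Real.exp_pos _

theorem dot_le (x y : Fin n → ℝ) : |∑ i, x i * y i| ≤ nm x * nm y := by
  rw [nm_eq_norm, nm_eq_norm]
  refine le_trans (le_of_eq ?_) (abs_real_inner_le_norm (WithLp.toLp 2 x) (WithLp.toLp 2 y))
  congr 1
  simp [PiLp.inner_apply, mul_comm]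

theorem integral_gauss_one : ∫ s : ℝ, Real.exp (-s ^ 2 / 2) = Real.sqrt (2 * Real.pi) := by
  have h := integral_gaussian (1 / 2)
  rw [show Real.pi / (1 / 2) = 2 * Real.pi by ring] at h
  rw [← h]
  exact integral_congr_ae (Eventually.of_forall fun s => congrArg Real.exp (by ring))

theorem integral_abs_gauss_one : ∫ s : ℝ, |s| * Real.exp (-s ^ 2 / 2) = 2 := by
  have e : (fun s : ℝ => |s| * Real.exp (-s ^ 2 / 2))
      = fun s => (fun u => u * Real.exp (-u ^ 2 / 2)) |s| := by
    funext s; simp [sq_abs]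
  rw [e, integral_comp_abs (f := fun u => u * Real.exp (-u ^ 2 / 2))]
  have h := integral_rpow_mul_exp_neg_mul_rpow (p := 2) (q := 1) (b := 1 / 2) (by norm_num)
    (by norm_num) (by norm_num)
  have e2 : ∀ u : ℝ, u ^ (1 : ℝ) * Real.exp (-(1 / 2) * u ^ (2 : ℝ))
      = u * Real.exp (-u ^ 2 / 2) := fun u => by
    rw [Real.rpow_one, Real.rpow_two]; ring_nf
  simp only [e2] at h
  rw [h]
  norm_num [Real.Gamma_one, Real.rpow_neg_one]

theorem gw_eq_prod (f : Fin n → ℝ) : gw f = ∏ i, Real.exp (-f i ^ 2 / 2) := by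
  rw [gw, ← Real.exp_sum, ← Finset.sum_div, Finset.sum_neg_distrib]

theorem integral_gw : ∫ f : Fin n → ℝ, gw f = Real.sqrt (2 * Real.pi) ^ n := by
  simp only [gw_eq_prod]
  rw [integral_fintype_prod_volume_eq_prod (fun (_ : Fin n) (s : ℝ) => Real.exp (-s ^ 2 / 2))]
  simp [integral_gauss_one]

theorem integral_abs_gw (k : Fin (n + 1)) :
    ∫ f : Fin (n + 1) → ℝ, |f k| * gw f = 2 * Real.sqrt (2 * Real.pi) ^ n := by
  set g : Fin (n + 1) → ℝ → ℝ := fun i s =>
    (if i = k then |s| else 1) * Real.exp (-s ^ 2 / 2)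
  have e : ∀ f : Fin (n + 1) → ℝ, |f k| * gw f = ∏ i, g i (f i) := fun f => by
    simp only [g, Finset.prod_mul_distrib, gw_eq_prod]
    simp
  simp only [e]
  rw [integral_fintype_prod_volume_eq_prod g, Fin.prod_univ_succAbove _ k]
  simp [g, integral_abs_gauss_one, integral_gauss_one, Fin.succAbove_ne]

/-- The isometry of coordinate space that takes the coordinate vectors to the basis `b`. -/
def rot (b : OrthonormalBasis (Fin (n + 1)) ℝ (EuclideanSpace ℝ (Fin (n + 1)))) :
    (Fin (n + 1) → ℝ) ≃ₗ[ℝ] (Fin (n + 1) → ℝ) :=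
  ((WithLp.linearEquiv 2 ℝ (Fin (n + 1) → ℝ)).symm.trans b.repr.symm.toLinearEquiv).trans
    (WithLp.linearEquiv 2 ℝ (Fin (n + 1) → ℝ))

section Rot

variable (b : OrthonormalBasis (Fin (n + 1)) ℝ (EuclideanSpace ℝ (Fin (n + 1))))

theorem rot_apply (x : Fin (n + 1) → ℝ) : rot b x = WithLp.ofLp (coords b x) := rfl

theorem continuous_rot : Continuous (rot b) :=
  (rot b).toLinearMap.continuous_of_finiteDimensional

theorem measurableEmbedding_rot : MeasurableEmbedding (rot b) :=
  (continuous_rot b).measurableEmbedding (rot b).injective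

theorem measurePreserving_rot : MeasurePreserving (rot b) volume volume :=
  (PiLp.volume_preserving_ofLp (Fin (n + 1))).comp (measurePreserving_coords b)

theorem nm_rot (x : Fin (n + 1) → ℝ) : nm (rot b x) = nm x := by
  rw [nm_eq_norm, nm_eq_norm, rot_apply, WithLp.toLp_ofLp, coords, LinearIsometryEquiv.norm_map]

theorem gw_rot (x : Fin (n + 1) → ℝ) : gw (rot b x) = gw x := by
  rw [gw, gw, ← nm_sq, ← nm_sq, nm_rot]

theorem dot_rot (x y : Fin (n + 1) → ℝ) :
    ∑ i, rot b x i * rot b y i = ∑ i, x i * y i := by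
  have h : ⟪coords b x, coords b y⟫ = ⟪WithLp.toLp 2 x, WithLp.toLp 2 y⟫ :=
    LinearIsometryEquiv.inner_map_map _ _ _
  simpa [PiLp.inner_apply, mul_comm, rot_apply] using h

theorem dot_rot_first (x : Fin (n + 1) → ℝ) :
    ∑ i, rot b x i * WithLp.ofLp (b 0) i = x 0 := by
  have h := repr_coords b x 0
  simpa [PiLp.inner_apply, mul_comm, rot_apply] using h

end Rot

theorem exists_rot {z : Fin (n + 1) → ℝ} (hz : z ≠ 0) :
    ∃ b : OrthonormalBasis (Fin (n + 1)) ℝ (EuclideanSpace ℝ (Fin (n + 1))),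
      ∀ i, z i = nm z * WithLp.ofLp (b 0) i := by
  have hn : 0 < nm z := (nm_nonneg z).lt_of_ne fun h => hz (nm_eq_zero h.symm)
  obtain ⟨b, hb⟩ := exists_basis_first (n := n) (u := (nm z)⁻¹ • WithLp.toLp 2 z)
    (by rw [norm_smul, ← nm_eq_norm, Real.norm_eq_abs, abs_inv, abs_of_pos hn,
      inv_mul_cancel₀ hn.ne'])
  refine ⟨b, fun i => ?_⟩
  rw [hb]
  simp [← mul_assoc, mul_inv_cancel₀ hn.ne']

/-- The Gaussian average of a linear functional. -/
theorem integral_dot_gw (z : Fin (n + 1) → ℝ) :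
    ∫ f, |∑ i, f i * z i| * gw f = 2 * Real.sqrt (2 * Real.pi) ^ n * nm z := by
  rcases eq_or_ne z 0 with rfl | hz
  · simp [nm]
  obtain ⟨b, hb⟩ := exists_rot hz
  rw [← (measurePreserving_rot b).integral_comp (measurableEmbedding_rot b)]
  have e : ∀ f, |∑ i, rot b f i * z i| * gw (rot b f) = nm z * (|f 0| * gw f) := fun f => by
    have : ∑ i, rot b f i * z i = nm z * f 0 := by
      rw [← dot_rot_first b f, Finset.mul_sum]
      exact Finset.sum_congr rfl fun i _ => by rw [hb i]; ring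
    rw [this, gw_rot, abs_mul, abs_of_nonneg (nm_nonneg z), mul_assoc]
  simp only [e, integral_const_mul, integral_abs_gw]
  ring

theorem integrable_sq_gauss : Integrable fun s : ℝ => s ^ 2 * Real.exp (-s ^ 2 / 2) := by
  have h := integrable_rpow_mul_exp_neg_mul_sq (b := 1 / 2) (by norm_num) (s := 2) (by norm_num)
  refine h.congr (Eventually.of_forall fun s => ?_)
  simp only [Real.rpow_two]; ring_nf

theorem integral_sq_gauss_one :
    ∫ s : ℝ, s ^ 2 * Real.exp (-s ^ 2 / 2) = Real.sqrt (2 * Real.pi) := by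
  have e : (fun s : ℝ => s ^ 2 * Real.exp (-s ^ 2 / 2))
      = fun s => (fun u => u ^ 2 * Real.exp (-u ^ 2 / 2)) |s| := by
    funext s; simp [sq_abs]
  rw [e, integral_comp_abs (f := fun u => u ^ 2 * Real.exp (-u ^ 2 / 2))]
  have h := integral_rpow_mul_exp_neg_mul_rpow (p := 2) (q := 2) (b := 1 / 2) (by norm_num)
    (by norm_num) (by norm_num)
  have e2 : ∀ u : ℝ, u ^ (2 : ℝ) * Real.exp (-(1 / 2) * u ^ (2 : ℝ))
      = u ^ 2 * Real.exp (-u ^ 2 / 2) := fun u => by
    rw [Real.rpow_two]; ring_nf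
  simp only [e2] at h
  rw [h, show ((2 : ℝ) + 1) / 2 = 1 / 2 + 1 by norm_num, Real.Gamma_add_one (by norm_num),
    Real.Gamma_one_half_eq, show (-(2 + 1) / 2 : ℝ) = -1 + -(1 / 2) by norm_num,
    Real.rpow_add (by norm_num), Real.rpow_neg_one, Real.rpow_neg (by norm_num),
    ← Real.sqrt_eq_rpow, Real.sqrt_mul (by norm_num)]
  have h2 : Real.sqrt (1 / 2) = (Real.sqrt 2)⁻¹ := by rw [one_div, Real.sqrt_inv]
  rw [h2, inv_inv]
  ring

theorem integrable_gauss_one : Integrable fun s : ℝ => Real.exp (-s ^ 2 / 2) := by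
  refine (integrable_exp_neg_mul_sq (b := 1 / 2) (by norm_num)).congr
    (Eventually.of_forall fun s => congrArg Real.exp (by ring))

theorem integrable_sq_gw (k : Fin n) : Integrable fun f : Fin n → ℝ => f k ^ 2 * gw f := by
  have e : (fun f : Fin n → ℝ => f k ^ 2 * gw f)
      = fun f => ∏ i, (if i = k then f i ^ 2 else 1) * Real.exp (-f i ^ 2 / 2) := by
    funext f; simp only [Finset.prod_mul_distrib, gw_eq_prod]; simp
  rw [e]
  refine Integrable.fintype_prod (f := fun i (s : ℝ) =>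
    (if i = k then s ^ 2 else 1) * Real.exp (-s ^ 2 / 2)) fun i => ?_
  by_cases h : i = k
  · simpa [h] using integrable_sq_gauss
  · simpa [h] using integrable_gauss_one

theorem integral_sq_gw :
    ∫ f : Fin n → ℝ, (∑ i, f i ^ 2) * gw f = n * Real.sqrt (2 * Real.pi) ^ n := by
  simp only [Finset.sum_mul]
  rw [integral_finsetSum _ fun i _ => integrable_sq_gw i]
  have h : ∀ k : Fin n, ∫ f : Fin n → ℝ, f k ^ 2 * gw f = Real.sqrt (2 * Real.pi) ^ n := fun k => by
    have e : ∀ f : Fin n → ℝ, f k ^ 2 * gw f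
        = ∏ i, (if i = k then f i ^ 2 else 1) * Real.exp (-f i ^ 2 / 2) := fun f => by
      simp only [Finset.prod_mul_distrib, gw_eq_prod]
      simp
    simp only [e]
    rw [integral_fintype_prod_volume_eq_prod
      (fun i (s : ℝ) => (if i = k then s ^ 2 else 1) * Real.exp (-s ^ 2 / 2))]
    rw [Finset.prod_congr rfl (g := fun _ => Real.sqrt (2 * Real.pi)) fun i _ => ?_]
    · simp
    · by_cases hi : i = k <;> simp [hi, integral_sq_gauss_one, integral_gauss_one]
  simp [h]

/-- The Gaussian average of the Euclidean length. -/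
theorem integral_nm_gw (n : ℕ) :
    ∫ f : Fin (n + 1) → ℝ, nm f * gw f =
      ((n : ℝ) + 1) * kappa (n + 1) / kappa n * Real.sqrt (2 * Real.pi) ^ n := by
  rw [← (PiLp.volume_preserving_ofLp (Fin (n + 1))).integral_comp
    (MeasurableEquiv.toLp 2 (Fin (n + 1) → ℝ)).symm.measurableEmbedding]
  have e : ∀ x : EuclideanSpace ℝ (Fin (n + 1)), nm (WithLp.ofLp x) * gw (WithLp.ofLp x)
      = (fun r : ℝ => r * Real.exp (-r ^ 2 / 2)) ‖x‖ := fun x => by
    rw [gw, ← nm_sq, nm_eq_norm, WithLp.toLp_ofLp]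
  simp only [e]
  rw [integral_fun_norm_addHaar (μ := (volume : Measure (EuclideanSpace ℝ (Fin (n + 1)))))
    (fun r : ℝ => r * Real.exp (-r ^ 2 / 2)), finrank_euclideanSpace_fin, nsmul_eq_mul, smul_eq_mul]
  have hs : ∀ r ∈ Ioi (0 : ℝ), r ^ (n + 1 - 1) • (r * Real.exp (-r ^ 2 / 2))
      = r ^ ((n : ℝ) + 1) * Real.exp (-(1 / 2) * r ^ (2 : ℝ)) := fun r hr => by
    rw [smul_eq_mul, Real.rpow_two, Real.rpow_add hr, Real.rpow_natCast, Real.rpow_one,
      Nat.add_sub_cancel]
    ring_nf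
  rw [setIntegral_congr_fun measurableSet_Ioi hs,
    integral_rpow_mul_exp_neg_mul_rpow (by norm_num) (by linarith [n.cast_nonneg (α := ℝ)])
      (by norm_num)]
  have hk : volume.real (ball (0 : EuclideanSpace ℝ (Fin (n + 1))) 1) = kappa (n + 1) := rfl
  rw [hk, show -((n : ℝ) + 1 + 1) / 2 = -((n : ℝ) / 2 + 1) by ring,
    show ((n : ℝ) + 1 + 1) / 2 = (n : ℝ) / 2 + 1 by ring,
    Vale.Agent.P237.Gen.Contact.kappa_eq n, Real.rpow_neg (by norm_num),
    Real.rpow_add (by norm_num : (0 : ℝ) < 1 / 2), Real.rpow_one]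
  have hq : (1 / 2 : ℝ) ^ ((n : ℝ) / 2) = (Real.sqrt 2)⁻¹ ^ n := by
    rw [show (n : ℝ) / 2 = 1 / 2 * n by ring, Real.rpow_mul (by norm_num), Real.rpow_natCast,
      ← Real.sqrt_eq_rpow, one_div, Real.sqrt_inv]
  have hg := (Real.Gamma_pos_of_pos (show (0 : ℝ) < (n : ℝ) / 2 + 1 by positivity)).ne'
  rw [hq, inv_pow, Real.sqrt_mul (by norm_num), mul_pow]
  push_cast
  field_simp

/-- The average of the length over a thin cone around a hyperplane. -/
theorem lintegral_slab (a : ℝ) (ha : 0 ≤ a) (ha1 : a < 1) :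
    ∫⁻ f : Fin (n + 1) → ℝ, ({f : Fin (n + 1) → ℝ | |f 0| ≤ a * nm f}).indicator
        (fun f => ENNReal.ofReal (nm f * gw f)) f ≤
      ENNReal.ofReal (2 * a / (1 - a ^ 2) * ((n : ℝ) * Real.sqrt (2 * Real.pi) ^ n)) := by
  have h1 : 0 < 1 - a ^ 2 := by nlinarith
  set b := a / Real.sqrt (1 - a ^ 2) with hb
  have hb0 : 0 ≤ b := by positivity
  have hb2 : 1 + b ^ 2 = 1 / (1 - a ^ 2) := by
    rw [hb, div_pow, Real.sq_sqrt h1.le]; field_simp; ring
  have hmp := (volume_preserving_piFinSuccAbove (fun _ : Fin (n + 1) => ℝ) 0).symm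
  have hS : MeasurableSet {f : Fin (n + 1) → ℝ | |f 0| ≤ a * nm f} :=
    (isClosed_le (by fun_prop) (continuous_const.mul continuous_nm)).measurableSet
  have hm : Measurable fun f : Fin (n + 1) → ℝ =>
      ({f : Fin (n + 1) → ℝ | |f 0| ≤ a * nm f}).indicator
        (fun f => ENNReal.ofReal (nm f * gw f)) f :=
    (continuous_nm.mul continuous_gw).measurable.ennreal_ofReal.indicator hS
  have hp := lintegral_prod_symm (μ := (volume : Measure ℝ)) (ν := (volume : Measure (Fin n → ℝ)))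
    _ (hm.comp hmp.measurable).aemeasurable
  simp only [Function.comp_def] at hp
  rw [← hmp.lintegral_comp hm, Measure.volume_eq_prod, hp]
  set C := 2 * a / (1 - a ^ 2) with hC
  have key : ∀ (y : Fin n → ℝ) (s : ℝ),
      ({f : Fin (n + 1) → ℝ | |f 0| ≤ a * nm f}).indicator
        (fun f => ENNReal.ofReal (nm f * gw f)) (Fin.cons s y) ≤
      (Icc (-(b * nm y)) (b * nm y)).indicator
        (fun _ => ENNReal.ofReal (Real.sqrt (1 + b ^ 2) * nm y * gw y)) s := by
    intro y s
    have hsum : ∑ i, (Fin.cons s y : Fin (n + 1) → ℝ) i ^ 2 = s ^ 2 + ∑ i, y i ^ 2 := by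
      simp [Fin.sum_univ_succ]
    by_cases h : (Fin.cons s y : Fin (n + 1) → ℝ) ∈ {f : Fin (n + 1) → ℝ | |f 0| ≤ a * nm f}
    · rw [indicator_of_mem h]
      have h' : |s| ≤ a * nm (Fin.cons s y : Fin (n + 1) → ℝ) := by simpa using h
      have h2 := pow_le_pow_left₀ (abs_nonneg s) h' 2
      rw [sq_abs, mul_pow, nm_sq, hsum, ← nm_sq y] at h2
      have hs : s ^ 2 ≤ (b * nm y) ^ 2 := by
        have e : (b * nm y) ^ 2 = a ^ 2 * nm y ^ 2 / (1 - a ^ 2) := by
          rw [mul_pow, hb, div_pow, Real.sq_sqrt h1.le]; ring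
        rw [e, le_div_iff₀ h1]; linarith
      have hmem : s ∈ Icc (-(b * nm y)) (b * nm y) :=
        abs_le.1 (abs_le_of_sq_le_sq hs (mul_nonneg hb0 (nm_nonneg y)))
      rw [indicator_of_mem hmem]
      refine ENNReal.ofReal_le_ofReal (mul_le_mul ?_ ?_ (gw_pos _).le
        (mul_nonneg (Real.sqrt_nonneg _) (nm_nonneg y)))
      · refine (pow_le_pow_iff_left₀ (nm_nonneg _)
          (mul_nonneg (Real.sqrt_nonneg _) (nm_nonneg y)) two_ne_zero).1 ?_
        rw [nm_sq, hsum, mul_pow, Real.sq_sqrt (by positivity), ← nm_sq y]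
        nlinarith
      · refine Real.exp_le_exp.2 ?_
        rw [hsum]
        nlinarith [sq_nonneg s]
    · rw [indicator_of_notMem h]; exact zero_le
  calc _ ≤ ∫⁻ y : Fin n → ℝ, ∫⁻ s : ℝ, (Icc (-(b * nm y)) (b * nm y)).indicator
        (fun _ => ENNReal.ofReal (Real.sqrt (1 + b ^ 2) * nm y * gw y)) s := by
        refine lintegral_mono fun y => lintegral_mono fun s => ?_
        simpa [Fin.insertNthEquiv] using key y s
    _ = ∫⁻ y : Fin n → ℝ, ENNReal.ofReal (C * ((∑ i, y i ^ 2) * gw y)) := by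
        refine lintegral_congr fun y => ?_
        have hn := nm_nonneg y
        rw [lintegral_indicator measurableSet_Icc, setLIntegral_const, Real.volume_Icc,
          ← ENNReal.ofReal_mul (mul_nonneg (mul_nonneg (Real.sqrt_nonneg _) hn) (gw_pos y).le)]
        congr 1
        rw [← nm_sq, hC]
        have e : Real.sqrt (1 + b ^ 2) * b = a / (1 - a ^ 2) := by
          rw [hb2, hb, one_div, Real.sqrt_inv]
          field_simp
          rw [Real.sq_sqrt h1.le]
        linear_combination (2 * nm y ^ 2 * gw y) * e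
    _ ≤ _ := by
        have hi : Integrable fun y : Fin n → ℝ => C * ((∑ i, y i ^ 2) * gw y) := by
          simp only [Finset.sum_mul]
          exact (integrable_finsetSum _ fun i _ => integrable_sq_gw i).const_mul _
        rw [← ofReal_integral_eq_lintegral_ofReal hi (Eventually.of_forall fun y =>
            mul_nonneg (div_nonneg (by linarith) h1.le) (mul_nonneg (Finset.sum_nonneg fun i _ => sq_nonneg _)
              (gw_pos y).le)), integral_const_mul, integral_sq_gw]

end Vale.Agent.P248.Universal
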