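import Vale.Agent.P248.Balanced.Linear
import Vale.Agent.P248.Universal.Gauss

/-!
# One dimension up: the volume product against Gaussian averaged sections
-/

open MeasureTheory Set Filter Metric
open scoped ENNReal Topology Nat Pointwise
open Vale.Agent.P248.Balanced
open Vale.Agent.P237.Every (kappa)
open Vale.Agent.P237.Gen.Contact (coords)

noncomputable section

namespace Vale.Agent.P248.Universal

variable {n : ℕ}

/-- The part of `K` near the hyperplane orthogonal to `f`. -/
def slab (K : Set (Fin n → ℝ)) (ε : ℝ) (f : Fin n → ℝ) : Set (Fin n → ℝ) :=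
  K ∩ {x | |∑ i, x i * f i| ≤ ε * nm f}

/-- The total variation of `exp (-h)` in the direction `f`. -/
def dvar (K : Set (Fin n → ℝ)) (f : Fin n → ℝ) : ℝ≥0∞ :=
  ∫⁻ y, ENNReal.ofReal (|lineDeriv ℝ (supp K) y f| * Real.exp (-supp K y))

theorem rot_single (b : OrthonormalBasis (Fin (n + 1)) ℝ (EuclideanSpace ℝ (Fin (n + 1)))) :
    rot b (Pi.single 0 1) = WithLp.ofLp (b 0) := by
  rw [rot_apply, coords]
  exact congrArg WithLp.ofLp (b.repr_symm_single 0)

/-- Every slab meets the section bound. -/
theorem slab_bound {K : Set (Fin (n + 1) → ℝ)} (hS : SymBody K) {r : ℝ}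
    (hball : ∀ x, nm x ≤ r → x ∈ K) {c : ℝ≥0∞}
    (hrec : ∀ S : Set (Fin n → ℝ), SymBody S → c ≤ volume S * suppInt S)
    {ε : ℝ} (hε : 0 < ε) (hεr : ε < r) (f : Fin (n + 1) → ℝ) :
    ENNReal.ofReal (4 * ε * (1 - ε / r) ^ n * nm f) * c ≤
      volume (slab K ε f) * dvar K f := by
  rcases eq_or_ne f 0 with rfl | hf
  · simp [nm]
  obtain ⟨b, hb⟩ := exists_rot hf
  set s := nm f with hs
  have hs0 : 0 < s := (nm_nonneg f).lt_of_ne fun h => hf (nm_eq_zero h.symm)
  have hfe : f = s • rot b (Pi.single 0 1) := by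
    rw [rot_single]; funext i; exact hb i
  have hr : 0 < r := hε.trans hεr
  set K' : Set (Fin (n + 1) → ℝ) := (rot b).symm '' K with hK'
  have hS' : SymBody K' := hS.image (rot b).symm
  have hmem : ∀ z, z ∈ K' ↔ rot b z ∈ K := fun z =>
    ⟨fun ⟨x, hx, e⟩ => by rw [← e, LinearEquiv.apply_symm_apply]; exact hx,
      fun h => ⟨_, h, (rot b).symm_apply_apply z⟩⟩
  have hsupp : ∀ z, supp K' z = supp K (rot b z) := fun z => by
    rw [supp, supp, hK', Set.image_image]
    congr 1
    refine Set.image_congr fun x _ => ?_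
    rw [← dot_rot b ((rot b).symm x) z, LinearEquiv.apply_symm_apply]
  -- the derivative along `f`
  have hD : dvar K f = ENNReal.ofReal s * ∫⁻ z, ENNReal.ofReal
      (|lineDeriv ℝ (supp K') z (Pi.single 0 1)| * Real.exp (-supp K' z)) := by
    have hl : ∀ z, lineDeriv ℝ (supp K') z (Pi.single 0 1)
        = lineDeriv ℝ (supp K) (rot b z) (rot b (Pi.single 0 1)) := fun z => by
      simp only [lineDeriv, hsupp, map_add, map_smul]
    have hm : Measurable fun y => ENNReal.ofReal
        (|lineDeriv ℝ (supp K) y (rot b (Pi.single 0 1))| * Real.exp (-supp K y)) :=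
      ((measurable_lineDeriv hS.continuous_supp).abs.mul (measurable_expNeg hS)).ennreal_ofReal
    simp only [hl, hsupp]
    rw [(measurePreserving_rot b).lintegral_comp hm, dvar, ← lintegral_const_mul _ hm]
    refine lintegral_congr fun y => ?_
    rw [← ENNReal.ofReal_mul hs0.le]
    conv_lhs => rw [hfe, lineDeriv_smul, smul_eq_mul, abs_mul, abs_of_pos hs0]
    ring_nf
  -- the slab contains a cylinder over the section
  set phi := 1 - ε / r with hphi
  have hphi0 : 0 ≤ phi := sub_nonneg.2 ((div_le_one hr).2 hεr.le)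
  have hslab : ENNReal.ofReal (2 * ε * phi ^ n) * volume (Balanced.sec K' 0) ≤
      volume (slab K ε f) := by
    set P : Set (Fin (n + 1) → ℝ) := {z | z ∈ K' ∧ |z 0| ≤ ε} with hP
    have hpre : rot b ⁻¹' slab K ε f = P := by
      ext z
      have e : ∑ i, rot b z i * f i = s * z 0 := by
        rw [← dot_rot_first b z, Finset.mul_sum]
        exact Finset.sum_congr rfl fun i _ => by rw [hb i]; ring
      simp only [slab, mem_preimage, mem_inter_iff, mem_ofPred_eq, hP, hmem, e, abs_mul,
        abs_of_pos hs0, ← hs]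
      rw [mul_comm ε s, mul_le_mul_iff_right₀ hs0]
    rw [← (measurePreserving_rot b).measure_preimage_emb (measurableEmbedding_rot b), hpre]
    have hPm : MeasurableSet P :=
      (hS'.compact.isClosed.inter (isClosed_le (continuous_apply 0).abs continuous_const)
        ).measurableSet
    have hmp := (volume_preserving_piFinSuccAbove (fun _ : Fin (n + 1) => ℝ) 0).symm
    have hsub : Icc (-ε) ε ×ˢ (phi • Balanced.sec K' 0) ⊆
        (MeasurableEquiv.piFinSuccAbove (fun _ : Fin (n + 1) => ℝ) 0).symm ⁻¹' P := by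
      rintro ⟨t, _⟩ ⟨ht, y, hy, rfl⟩
      have ht' : |t| ≤ ε := abs_le.2 ht
      set p : Fin (n + 1) → ℝ := Pi.single 0 (t * r / ε) with hp
      have hpK : p ∈ K' := by
        rw [hmem]
        refine hball _ ?_
        rw [nm_rot, nm, Real.sqrt_le_left hr.le]
        rw [Finset.sum_eq_single 0 (fun i _ hi => by simp [hp, hi]) (by simp)]
        simp only [hp, Pi.single_eq_same]
        rw [← sq_abs]
        refine pow_le_pow_left₀ (abs_nonneg _) ?_ 2
        rw [abs_div, abs_mul, abs_of_pos hε, abs_of_pos hr, div_le_iff₀ hε]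
        nlinarith
      have hz := hS'.convex (show ins 0 0 y ∈ K' from hy) hpK hphi0
        (div_nonneg hε.le hr.le) (by rw [hphi]; ring)
      have e : phi • ins 0 0 y + (ε / r) • p = ins 0 t (phi • y) := by
        ext j
        rcases Fin.eq_self_or_eq_succAbove 0 j with rfl | ⟨m, rfl⟩
        · simp [hp]; field_simp
        · simp only [Pi.add_apply, Pi.smul_apply, smul_eq_mul, ins_above, hp,
            Pi.single_eq_of_ne (Fin.succAbove_ne _ _), mul_zero, add_zero]
      rw [e] at hz
      refine ⟨?_, ?_⟩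
      · simpa [ins, Fin.insertNthEquiv] using hz
      · simpa [Fin.insertNthEquiv] using ht'
    calc ENNReal.ofReal (2 * ε * phi ^ n) * volume (Balanced.sec K' 0)
        = volume (Icc (-ε) ε) * volume (phi • Balanced.sec K' 0) := by
          rw [Real.volume_Icc, Measure.addHaar_smul_of_nonneg volume hphi0, Module.finrank_pi,
            Fintype.card_fin, ← mul_assoc, ← ENNReal.ofReal_mul (by linarith)]
          ring_nf
      _ = volume (Icc (-ε) ε ×ˢ (phi • Balanced.sec K' 0)) := (Measure.prod_prod _ _).symm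
      _ ≤ _ := by
          rw [← hmp.measure_preimage hPm.nullMeasurableSet]
          exact measure_mono hsub
  have hsec := (hS'.sec 0)
  calc ENNReal.ofReal (4 * ε * phi ^ n * s) * c
      ≤ ENNReal.ofReal (4 * ε * phi ^ n * s) *
          (volume (Balanced.sec K' 0) * suppInt (Balanced.sec K' 0)) :=
        mul_le_mul' le_rfl (hrec _ hsec)
    _ = ENNReal.ofReal (2 * ε * phi ^ n) * volume (Balanced.sec K' 0) *
          (ENNReal.ofReal s * (2 * suppInt (Balanced.sec K' 0))) := by
        rw [show 4 * ε * phi ^ n * s = (2 * ε * phi ^ n) * s * 2 by ring,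
          ENNReal.ofReal_mul (by positivity), ENNReal.ofReal_mul (by positivity),
          ENNReal.ofReal_ofNat]
        ring
    _ ≤ _ := by
        rw [hD]
        exact mul_le_mul' hslab (mul_le_mul' le_rfl (two_suppInt_sec_le hS' 0))

/-- The Gaussian average of the variations. -/
theorem lintegral_dvar {K : Set (Fin (n + 1) → ℝ)} (hS : SymBody K) {R : ℝ} (hR0 : 0 ≤ R)
    (hR : ∀ x ∈ K, nm x ≤ R) :
    ∫⁻ f, ENNReal.ofReal (gw f) * dvar K f ≤
      ENNReal.ofReal (2 * Real.sqrt (2 * Real.pi) ^ n * R) * suppInt K := by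
  obtain ⟨C, hC⟩ := hS.exists_lipschitz
  have hm : Measurable (Function.uncurry fun (f : Fin (n + 1) → ℝ) (y : Fin (n + 1) → ℝ) =>
      ENNReal.ofReal (gw f) * ENNReal.ofReal
        (|lineDeriv ℝ (supp K) y f| * Real.exp (-supp K y))) :=
    (continuous_gw.comp continuous_fst).measurable.ennreal_ofReal.mul
      ((((measurable_lineDeriv_uncurry hS.continuous_supp).comp measurable_swap).abs.mul
        ((measurable_expNeg hS).comp measurable_snd)).ennreal_ofReal)
  have e : ∀ f, ENNReal.ofReal (gw f) * dvar K f = ∫⁻ y, ENNReal.ofReal (gw f) *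
      ENNReal.ofReal (|lineDeriv ℝ (supp K) y f| * Real.exp (-supp K y)) := fun f =>
    (lintegral_const_mul' _ _ ENNReal.ofReal_ne_top).symm
  simp only [e]
  rw [lintegral_lintegral_swap hm.aemeasurable, suppInt,
    ← lintegral_const_mul _ (measurable_expNeg hS).ennreal_ofReal]
  refine lintegral_mono_ae ?_
  filter_upwards [hC.ae_differentiableAt] with y hy
  set L := fderiv ℝ (supp K) y
  have hL : ∀ v, lineDeriv ℝ (supp K) y v = L v := fun v => hy.lineDeriv_eq_fderiv
  set w : Fin (n + 1) → ℝ := fun i => L (Pi.single i 1) with hw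
  have hLv : ∀ v, L v = ∑ i, v i * w i := fun v => by
    conv_lhs => rw [pi_eq_sum_univ' v]
    simp [w, map_sum]
  have hwR : nm w ≤ R := by
    have h1 : L w ≤ R * nm w := by
      rw [← hL]
      refine (lineDeriv_le_supp hS hy w).trans (hS.supp_le fun x hx => ?_)
      exact (le_abs_self _).trans ((dot_le x w).trans
        (mul_le_mul_of_nonneg_right (hR x hx) (nm_nonneg w)))
    have h2 : L w = nm w ^ 2 := by rw [hLv, nm_sq]; simp [sq]
    nlinarith [nm_nonneg w]
  set E := Real.exp (-supp K y) with hE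
  have hi : Integrable fun f : Fin (n + 1) → ℝ => |∑ i, f i * w i| * gw f := by
    by_contra hc
    have h := integral_dot_gw w
    rw [integral_undef hc] at h
    have hw0 : nm w = 0 := by
      have : (0 : ℝ) < 2 * Real.sqrt (2 * Real.pi) ^ n := by positivity
      nlinarith [nm_nonneg w]
    refine hc ?_
    simp [nm_eq_zero hw0]
  calc ∫⁻ f, ENNReal.ofReal (gw f) * ENNReal.ofReal (|lineDeriv ℝ (supp K) y f| * E)
      = ∫⁻ f, ENNReal.ofReal (|∑ i, f i * w i| * gw f * E) := by
        refine lintegral_congr fun f => ?_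
        rw [hL, hLv, ← ENNReal.ofReal_mul (gw_pos f).le]
        ring_nf
    _ = ENNReal.ofReal ((∫ f, |∑ i, f i * w i| * gw f) * E) := by
        rw [← integral_mul_const, ofReal_integral_eq_lintegral_ofReal (hi.mul_const _)
          (Eventually.of_forall fun f => by have := gw_pos f; positivity)]
    _ ≤ _ := by
        rw [integral_dot_gw, ← ENNReal.ofReal_mul (by positivity)]
        refine ENNReal.ofReal_le_ofReal (mul_le_mul_of_nonneg_right ?_ (Real.exp_pos _).le)
        exact mul_le_mul_of_nonneg_left hwR (by positivity)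

/-- The weighted Gaussian average of the slabs. -/
theorem lintegral_slab_volume {K : Set (Fin (n + 1) → ℝ)} (hS : SymBody K) {ε η : ℝ} (hε : 0 < ε)
    (hη : 0 < η) (hη1 : η < 1) :
    ∫⁻ f, ENNReal.ofReal (nm f * gw f) * volume (slab K ε f) ≤
      ENNReal.ofReal (2 * ε / (1 - η ^ 2) * ((n : ℝ) * Real.sqrt (2 * Real.pi) ^ n)) *
        (∫⁻ x in K, ENNReal.ofReal (1 / nm x)) +
      ENNReal.ofReal (((n : ℝ) + 1) * kappa (n + 1) / kappa n * Real.sqrt (2 * Real.pi) ^ n) *
        volume {x : Fin (n + 1) → ℝ | nm x ≤ ε / η} := by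
  set C := Real.sqrt (2 * Real.pi) ^ n
  set T := {p : (Fin (n + 1) → ℝ) × (Fin (n + 1) → ℝ) |
    |∑ i, p.2 i * p.1 i| ≤ ε * nm p.1} with hT
  have hTm : MeasurableSet T :=
    (isClosed_le (by fun_prop) (continuous_const.mul (continuous_nm.comp continuous_fst))).measurableSet
  have hKm := hS.compact.measurableSet
  set w : (Fin (n + 1) → ℝ) → (Fin (n + 1) → ℝ) → ℝ≥0∞ := fun f x =>
    K.indicator (fun x => T.indicator (fun p => ENNReal.ofReal (nm p.1 * gw p.1)) (f, x)) x with hw
  have hwm : Measurable (Function.uncurry w) := by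
    have : Function.uncurry w = (univ ×ˢ K).indicator
        (T.indicator fun p => ENNReal.ofReal (nm p.1 * gw p.1)) := by
      funext p; by_cases hp : p.2 ∈ K <;> simp [hw, hp, Function.uncurry]
    rw [this]
    exact (((continuous_nm.mul continuous_gw).comp continuous_fst).measurable.ennreal_ofReal.indicator
      hTm).indicator (MeasurableSet.univ.prod hKm)
  have e : ∀ f, ENNReal.ofReal (nm f * gw f) * volume (slab K ε f) = ∫⁻ x, w f x := fun f => by
    have hsm : MeasurableSet (slab K ε f) :=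
      hKm.inter (isClosed_le (by fun_prop) continuous_const).measurableSet
    rw [← setLIntegral_const, ← lintegral_indicator hsm]
    refine lintegral_congr fun x => ?_
    by_cases hx : x ∈ K <;> by_cases hp : (f, x) ∈ T <;>
      simp_all [w, slab, T, indicator_apply]
  simp only [e]
  rw [lintegral_lintegral_swap hwm.aemeasurable]
  set G := ((n : ℝ) + 1) * kappa (n + 1) / kappa n * C
  set A := 2 * ε / (1 - η ^ 2) * ((n : ℝ) * C)
  have key : ∀ x, ∫⁻ f, w f x ≤ K.indicator (fun x => ENNReal.ofReal A *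
      ENNReal.ofReal (1 / nm x)) x +
      ({x : Fin (n + 1) → ℝ | nm x ≤ ε / η}).indicator (fun _ => ENNReal.ofReal G) x := by
    intro x
    by_cases hx : x ∈ K
    swap
    · simp [w, indicator_of_notMem hx]
    rw [indicator_of_mem hx]
    simp only [w, indicator_of_mem hx]
    by_cases hsmall : nm x ≤ ε / η
    · rw [indicator_of_mem (show x ∈ {x | nm x ≤ ε / η} from hsmall)]
      refine le_trans ?_ le_add_self
      calc _ ≤ ∫⁻ f : Fin (n + 1) → ℝ, ENNReal.ofReal (nm f * gw f) :=
            lintegral_mono fun f => indicator_le_self T (fun p => ENNReal.ofReal (nm p.1 * gw p.1)) (f, x)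
        _ = _ := by
            rw [← ofReal_integral_eq_lintegral_ofReal ?_ (Eventually.of_forall fun f =>
              mul_nonneg (nm_nonneg f) (gw_pos f).le), integral_nm_gw]
            by_contra hc
            have h := integral_nm_gw n
            rw [integral_undef hc] at h
            have : 0 < G := by
              have := Vale.Agent.P237.Gen.kappa_pos n
              have := Vale.Agent.P237.Gen.kappa_pos (n + 1)
              positivity
            linarith
    · rw [indicator_of_notMem (show x ∉ {x | nm x ≤ ε / η} from hsmall), add_zero]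
      have hpos : ε / η < nm x := not_le.1 hsmall
      have hx0 : 0 < nm x := (div_pos hε hη).trans hpos
      have hxne : x ≠ 0 := fun h => by simp [h, nm] at hx0
      obtain ⟨b, hb⟩ := exists_rot hxne
      set a := ε / nm x with ha
      have haη : a ≤ η := by
        rw [ha, div_le_iff₀ hx0]; rw [div_lt_iff₀ hη] at hpos; linarith
      have ha0 : 0 ≤ a := by positivity
      have hm : Measurable fun f => T.indicator (fun p => ENNReal.ofReal (nm p.1 * gw p.1)) (f, x) :=
        (((continuous_nm.mul continuous_gw).comp continuous_fst).measurable.ennreal_ofReal.indicator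
          hTm).comp measurable_prodMk_right
      rw [← (measurePreserving_rot b).lintegral_comp hm]
      have e2 : ∀ g, T.indicator (fun p => ENNReal.ofReal (nm p.1 * gw p.1)) (rot b g, x) =
          ({f : Fin (n + 1) → ℝ | |f 0| ≤ a * nm f}).indicator
            (fun f => ENNReal.ofReal (nm f * gw f)) g := fun g => by
        have e3 : ∑ i, x i * rot b g i = nm x * g 0 := by
          rw [← dot_rot_first b g, Finset.mul_sum]
          exact Finset.sum_congr rfl fun i _ => by rw [hb i]; ring
        have hiff : (rot b g, x) ∈ T ↔ g ∈ {f : Fin (n + 1) → ℝ | |f 0| ≤ a * nm f} := by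
          simp only [T, mem_ofPred_eq, e3, nm_rot, abs_mul, abs_of_pos hx0]
          rw [show a * nm g = ε * nm g / nm x by rw [ha]; ring, le_div_iff₀ hx0, mul_comm]
        by_cases hg : g ∈ {f : Fin (n + 1) → ℝ | |f 0| ≤ a * nm f}
        · rw [indicator_of_mem hg, indicator_of_mem (hiff.2 hg)]; simp [nm_rot, gw_rot]
        · rw [indicator_of_notMem hg, indicator_of_notMem (mt hiff.1 hg)]
      simp only [e2]
      refine (lintegral_slab a ha0 (haη.trans_lt hη1)).trans ?_
      have h2 : 0 < 1 - η ^ 2 := by nlinarith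
      rw [← ENNReal.ofReal_mul (by positivity)]
      refine ENNReal.ofReal_le_ofReal ?_
      rw [show A * (1 / nm x) = 2 * a / (1 - η ^ 2) * ((n : ℝ) * C) by rw [ha]; ring]
      refine mul_le_mul_of_nonneg_right ?_ (by positivity)
      gcongr
  refine (lintegral_mono key).trans (le_of_eq ?_)
  have hnm1 : Measurable fun x : Fin (n + 1) → ℝ => ENNReal.ofReal (1 / nm x) :=
    (measurable_const.div continuous_nm.measurable).ennreal_ofReal
  rw [lintegral_add_left ((hnm1.const_mul _).indicator hKm), lintegral_indicator hKm,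
    lintegral_const_mul _ hnm1, lintegral_indicator
      (isClosed_le continuous_nm continuous_const).measurableSet, setLIntegral_const]

theorem volume_nm_le {R : ℝ} (hR : 0 ≤ R) :
    volume {x : Fin (n + 1) → ℝ | nm x ≤ R} = ENNReal.ofReal (R ^ (n + 1) * kappa (n + 1)) := by
  have e : {x : Fin (n + 1) → ℝ | nm x ≤ R} =
      WithLp.toLp 2 ⁻¹' closedBall (0 : EuclideanSpace ℝ (Fin (n + 1))) R := by
    ext x; simp [nm_eq_norm]
  rw [e, (PiLp.volume_preserving_toLp (Fin (n + 1))).measure_preimage
    measurableSet_closedBall.nullMeasurableSet, Measure.addHaar_closedBall _ _ hR,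
    finrank_euclideanSpace_fin, ENNReal.ofReal_mul (by positivity)]
  congr 1
  exact (ofReal_measureReal measure_ball_lt_top.ne).symm

/-- Among bodies of a given volume the ball has the largest integral of `1 / |x|`. -/
theorem lintegral_inv_le (hn : 1 ≤ n) {K : Set (Fin (n + 1) → ℝ)} (hK : MeasurableSet K)
    {ρ : ℝ} (hρ : 0 < ρ) (hvol : volume K = ENNReal.ofReal (ρ ^ (n + 1) * kappa (n + 1))) :
    ∫⁻ x in K, ENNReal.ofReal (1 / nm x) ≤
      ENNReal.ofReal (((n : ℝ) + 1) * kappa (n + 1) * ρ ^ n / n) := by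
  set g : (Fin (n + 1) → ℝ) → ℝ≥0∞ := fun x => ENNReal.ofReal (1 / nm x) with hg
  have hgm : Measurable g := (measurable_const.div continuous_nm.measurable).ennreal_ofReal
  set B := {x : Fin (n + 1) → ℝ | nm x ≤ ρ} with hB
  have hBm : MeasurableSet B := (isClosed_le continuous_nm continuous_const).measurableSet
  have hfin : volume (K ∩ B) ≠ ⊤ := ne_top_of_le_ne_top (hvol ▸ ENNReal.ofReal_ne_top)
    (measure_mono inter_subset_left)
  have hdiff : volume (K \ B) = volume (B \ K) := by
    have h1 := measure_inter_add_sdiff (μ := volume) K hBm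
    have h2 := measure_inter_add_sdiff (μ := volume) B hK
    rw [inter_comm B K, volume_nm_le hρ.le, ← hvol] at h2
    exact (ENNReal.add_right_inj hfin).1 (h1.trans h2.symm)
  have hball : ∫⁻ x in B, g x = ENNReal.ofReal (((n : ℝ) + 1) * kappa (n + 1) * ρ ^ n / n) := by
    set u : ℝ → ℝ := (Icc 0 ρ).indicator fun t => 1 / t with hu
    have e : ∀ x, B.indicator g x = ENNReal.ofReal (u (nm x)) := fun x => by
      by_cases hx : nm x ≤ ρ
      · rw [indicator_of_mem (show x ∈ B from hx), hu,
          indicator_of_mem (show nm x ∈ Icc 0 ρ from ⟨nm_nonneg x, hx⟩)]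
      · rw [indicator_of_notMem (show x ∉ B from hx), hu,
          indicator_of_notMem (show nm x ∉ Icc 0 ρ from fun h => hx h.2), ENNReal.ofReal_zero]
    have hu0 : ∀ x : Fin (n + 1) → ℝ, 0 ≤ u (nm x) := fun x =>
      indicator_nonneg (fun t ht => by simpa using ht.1) _
    have hr : ∀ t ∈ Ioi (0 : ℝ), t ^ n • u t = (Ioc 0 ρ).indicator (fun t => t ^ (n - 1)) t := by
      intro t (ht : 0 < t)
      by_cases h : t ≤ ρ
      · rw [hu, indicator_of_mem (show t ∈ Icc 0 ρ from ⟨ht.le, h⟩),
          indicator_of_mem (show t ∈ Ioc 0 ρ from ⟨ht, h⟩), smul_eq_mul]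
        conv_lhs => rw [← Nat.sub_add_cancel hn, pow_succ]
        field_simp
      · rw [hu, indicator_of_notMem (show t ∉ Icc 0 ρ from fun h' => h h'.2),
          indicator_of_notMem (show t ∉ Ioc 0 ρ from fun h' => h h'.2), smul_zero]
    have hint : Integrable fun x : EuclideanSpace ℝ (Fin (n + 1)) => u ‖x‖ := by
      rw [integrable_fun_norm_addHaar, finrank_euclideanSpace_fin, Nat.add_sub_cancel,
        integrableOn_congr_fun hr measurableSet_Ioi]
      exact (((continuous_pow (n - 1)).integrableOn_Ioc).integrable_indicator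
        measurableSet_Ioc).integrableOn
    rw [← lintegral_indicator hBm]
    simp only [e]
    have hum : Measurable fun x : Fin (n + 1) → ℝ => ENNReal.ofReal (u (nm x)) :=
      (((measurable_const.div measurable_id).indicator measurableSet_Icc).comp
        continuous_nm.measurable).ennreal_ofReal
    rw [← (PiLp.volume_preserving_ofLp (Fin (n + 1))).lintegral_comp hum]
    have e2 : ∀ x : EuclideanSpace ℝ (Fin (n + 1)), nm (WithLp.ofLp x) = ‖x‖ := fun x => by
      rw [nm_eq_norm, WithLp.toLp_ofLp]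
    simp only [e2]
    rw [← ofReal_integral_eq_lintegral_ofReal hint (Eventually.of_forall fun x => by
      simpa [e2] using hu0 (WithLp.ofLp x))]
    congr 1
    rw [integral_fun_norm_addHaar (μ := (volume : Measure (EuclideanSpace ℝ (Fin (n + 1))))) u,
      finrank_euclideanSpace_fin, Nat.add_sub_cancel, setIntegral_congr_fun measurableSet_Ioi hr,
      setIntegral_indicator measurableSet_Ioc,
      inter_eq_right.2 Ioc_subset_Ioi_self, ← intervalIntegral.integral_of_le hρ.le, integral_pow]
    have hk : volume.real (ball (0 : EuclideanSpace ℝ (Fin (n + 1))) 1) = kappa (n + 1) := rfl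
    rw [hk, Nat.sub_add_cancel hn, nsmul_eq_mul, smul_eq_mul, zero_pow (by omega)]
    push_cast [Nat.cast_sub hn]
    have : (n : ℝ) ≠ 0 := by exact_mod_cast (show n ≠ 0 by omega)
    field_simp
    ring_nf
    field_simp
  rw [← hball]
  calc ∫⁻ x in K, g x = (∫⁻ x in K ∩ B, g x) + ∫⁻ x in K \ B, g x :=
        (lintegral_inter_add_sdiff g K hBm).symm
    _ ≤ (∫⁻ x in K ∩ B, g x) + ENNReal.ofReal (1 / ρ) * volume (K \ B) := by
        gcongr
        rw [← setLIntegral_const]
        refine setLIntegral_mono' (hK.diff hBm) fun x hx => ENNReal.ofReal_le_ofReal ?_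
        exact one_div_le_one_div_of_le hρ (not_le.1 hx.2).le
    _ ≤ (∫⁻ x in B ∩ K, g x) + ∫⁻ x in B \ K, g x := by
        rw [inter_comm K B, hdiff]
        gcongr
        rw [← setLIntegral_const]
        refine setLIntegral_mono_ae hgm.aemeasurable ?_
        have h0 : ∀ᵐ x ∂(volume : Measure (Fin (n + 1) → ℝ)), x ≠ 0 := by
          simp [ae_iff]
        filter_upwards [h0] with x hx hxm
        exact ENNReal.ofReal_le_ofReal (one_div_le_one_div_of_le
          ((nm_nonneg x).lt_of_ne fun h => hx (nm_eq_zero h.symm)) hxm.1)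
    _ = ∫⁻ x in B, g x := lintegral_inter_add_sdiff g B hK

theorem amgm (a lam s : ℝ) (ha : 0 ≤ a) (hl : 0 < lam) (hs : 0 ≤ s) {V D : ℝ≥0∞}
    (hV : V ≠ ⊤) (h : ENNReal.ofReal (a * s) ≤ V * D) {g : ℝ} (hg : 0 < g) :
    ENNReal.ofReal (2 * Real.sqrt a * (s * g)) ≤
      ENNReal.ofReal lam * (ENNReal.ofReal (s * g) * V) +
        ENNReal.ofReal lam⁻¹ * (ENNReal.ofReal g * D) := by
  rcases eq_or_ne D ⊤ with rfl | hD
  · rw [ENNReal.mul_top (ENNReal.ofReal_pos.2 hg).ne',
      ENNReal.mul_top (ENNReal.ofReal_pos.2 (inv_pos.2 hl)).ne', add_top]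
    exact le_top
  have h' : a * s ≤ V.toReal * D.toReal := by
    have := ENNReal.toReal_mono (ENNReal.mul_ne_top hV hD) h
    rwa [ENNReal.toReal_ofReal (mul_nonneg ha hs), ENNReal.toReal_mul] at this
  rw [← ENNReal.ofReal_toReal hV, ← ENNReal.ofReal_toReal hD,
    ← ENNReal.ofReal_mul (mul_nonneg hs hg.le), ← ENNReal.ofReal_mul hg.le,
    ← ENNReal.ofReal_mul hl.le, ← ENNReal.ofReal_mul (inv_pos.2 hl).le,
    ← ENNReal.ofReal_add (by positivity) (by positivity)]
  refine ENNReal.ofReal_le_ofReal ?_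
  set v := V.toReal
  set d := D.toReal
  have hv : 0 ≤ v := ENNReal.toReal_nonneg
  have hd : 0 ≤ d := ENNReal.toReal_nonneg
  have key : 2 * (Real.sqrt a * s) ≤ lam * s * v + lam⁻¹ * d := by
    refine (pow_le_pow_iff_left₀ (by positivity) (by positivity) two_ne_zero).1 ?_
    have e : (2 * (Real.sqrt a * s)) ^ 2 = 4 * (a * s) * s := by
      rw [mul_pow, mul_pow, Real.sq_sqrt ha]; ring
    have e2 : lam * s * v * (lam⁻¹ * d) = s * (v * d) := by field_simp
    rw [e]
    nlinarith [sq_nonneg (lam * s * v - lam⁻¹ * d), mul_le_mul_of_nonneg_left h' hs]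
  nlinarith [mul_le_mul_of_nonneg_right key hg.le]

/-- The section bound of the induction, with the two parameters still free. -/
theorem approx_bound (hn : 1 ≤ n) {K : Set (Fin (n + 1) → ℝ)} (hS : SymBody K) {r R : ℝ}
    (hR0 : 0 ≤ R) (hball : ∀ x, nm x ≤ r → x ∈ K) (hR : ∀ x ∈ K, nm x ≤ R) {c I ρ : ℝ}
    (hc : 0 ≤ c) (hI : suppInt K = ENNReal.ofReal I) (hI0 : 0 ≤ I) (hρ : 0 < ρ)
    (hvol : volume K = ENNReal.ofReal (ρ ^ (n + 1) * kappa (n + 1)))
    (hrec : ∀ S : Set (Fin n → ℝ), SymBody S → ENNReal.ofReal c ≤ volume S * suppInt S)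
    {ε η μ : ℝ} (hε : 0 < ε) (hεr : ε < r) (hη : 0 < η) (hη1 : η < 1) (hμ : 0 < μ) :
    2 * Real.sqrt (4 * (1 - ε / r) ^ n * c) *
        (((n : ℝ) + 1) * kappa (n + 1) / kappa n) ≤
      μ * (2 / (1 - η ^ 2) * (n : ℝ) * (((n : ℝ) + 1) * kappa (n + 1) * ρ ^ n / n) +
        ((n : ℝ) + 1) * kappa (n + 1) / kappa n * (kappa (n + 1) * ε ^ n / η ^ (n + 1))) +
      2 * R * I / μ := by
  set C := Real.sqrt (2 * Real.pi) ^ n with hC
  have hC0 : 0 < C := by positivity
  have hk : 0 < kappa (n + 1) := Vale.Agent.P237.Gen.kappa_pos (n + 1)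
  have hk0 : 0 < kappa n := Vale.Agent.P237.Gen.kappa_pos n
  set G := ((n : ℝ) + 1) * kappa (n + 1) / kappa n with hG
  have hG0 : 0 < G := by positivity
  set J := ((n : ℝ) + 1) * kappa (n + 1) * ρ ^ n / n with hJ
  have hJ0 : 0 ≤ J := by positivity
  have hphi : 0 ≤ 1 - ε / r := sub_nonneg.2 ((div_le_one (hε.trans hεr)).2 hεr.le)
  set phi := (1 - ε / r) ^ n
  have hphi0 : 0 ≤ phi := pow_nonneg hphi n
  set a := 4 * ε * phi * c with ha
  have ha0 : 0 ≤ a := by positivity
  set lam := μ / Real.sqrt ε with hlam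
  have hse : 0 < Real.sqrt ε := Real.sqrt_pos.2 hε
  have hl : 0 < lam := by positivity
  have h2η : 0 < 1 - η ^ 2 := by nlinarith
  have hpt : ∀ f, ENNReal.ofReal (2 * Real.sqrt a * (nm f * gw f)) ≤
      ENNReal.ofReal lam * (ENNReal.ofReal (nm f * gw f) * volume (slab K ε f)) +
        ENNReal.ofReal lam⁻¹ * (ENNReal.ofReal (gw f) * dvar K f) := fun f => by
    refine amgm a lam _ ha0 hl (nm_nonneg f) (ne_top_of_le_ne_top hS.compact.measure_lt_top.ne
      (measure_mono inter_subset_left)) ?_ (gw_pos f)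
    refine le_trans (le_of_eq ?_) (slab_bound hS hball hrec hε hεr f)
    rw [← ENNReal.ofReal_mul (mul_nonneg (by positivity) (nm_nonneg f)), ha]
    simp only [phi]
    ring_nf
  have hint : Integrable fun f : Fin (n + 1) → ℝ => nm f * gw f := by
    by_contra hc'
    have h := integral_nm_gw n
    rw [integral_undef hc'] at h
    nlinarith [mul_pos hG0 hC0]
  have hmd : Measurable fun f => ENNReal.ofReal (gw f) * dvar K f :=
    continuous_gw.measurable.ennreal_ofReal.mul
      (((((measurable_lineDeriv_uncurry hS.continuous_supp).comp measurable_swap).abs.mul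
        ((measurable_expNeg hS).comp measurable_snd)).ennreal_ofReal).lintegral_prod_right')
  have h := lintegral_mono (μ := (volume : Measure (Fin (n + 1) → ℝ))) hpt
  rw [lintegral_add_right _ (hmd.const_mul _), lintegral_const_mul' _ _ ENNReal.ofReal_ne_top,
    lintegral_const_mul' _ _ ENNReal.ofReal_ne_top,
    ← ofReal_integral_eq_lintegral_ofReal (hint.const_mul _) (Eventually.of_forall fun f =>
      mul_nonneg (by positivity) (mul_nonneg (nm_nonneg f) (gw_pos f).le)),
    integral_const_mul, integral_nm_gw] at h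
  have h1 := lintegral_slab_volume hS hε hη hη1
  have h2 := lintegral_dvar hS hR0 hR
  rw [volume_nm_le (by positivity), hI] at *
  have hJle : ∫⁻ x in K, ENNReal.ofReal (1 / nm x) ≤ ENNReal.ofReal J :=
    lintegral_inv_le hn hS.compact.measurableSet hρ hvol
  have h3 : ENNReal.ofReal (2 * Real.sqrt a * (G * C)) ≤ ENNReal.ofReal
      (lam * (2 * ε / (1 - η ^ 2) * ((n : ℝ) * C) * J + G * C * ((ε / η) ^ (n + 1) * kappa (n + 1)))
        + lam⁻¹ * (2 * C * R * I)) := by
    refine h.trans ((add_le_add (mul_le_mul' le_rfl (h1.trans (add_le_add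
      (mul_le_mul' le_rfl hJle) le_rfl))) (mul_le_mul' le_rfl h2)).trans (le_of_eq ?_))
    rw [← ENNReal.ofReal_mul (by positivity), ← ENNReal.ofReal_mul (by positivity),
      ← ENNReal.ofReal_mul (by positivity), ← ENNReal.ofReal_add (by positivity) (by positivity),
      ← ENNReal.ofReal_mul hl.le, ← ENNReal.ofReal_mul (by positivity),
      ← ENNReal.ofReal_add (by positivity) (by positivity)]
  rw [ENNReal.ofReal_le_ofReal_iff (by positivity)] at h3
  have hsq : Real.sqrt a = Real.sqrt ε * Real.sqrt (4 * phi * c) := by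
    rw [← Real.sqrt_mul hε.le, ha]; ring_nf
  have hee : Real.sqrt ε * Real.sqrt ε = ε := Real.mul_self_sqrt hε.le
  refine le_of_mul_le_mul_right ?_ (mul_pos hC0 hse)
  refine le_trans (le_of_eq ?_) (h3.trans (le_of_eq ?_))
  · rw [hsq]; ring
  · rw [hlam, div_pow, pow_succ ε n, inv_div]
    field_simp
    rw [Real.sq_sqrt hε.le]
    ring

/-- One dimension up. -/
theorem step (hn : 1 ≤ n) {K : Set (Fin (n + 1) → ℝ)} (hS : SymBody K) {R b : ℝ}
    (hR : ∀ x ∈ K, nm x ≤ R) (hb : 0 ≤ b)
    (hrec : ∀ S : Set (Fin n → ℝ), SymBody S → b ≤ volume.real S * volume.real (polar S)) :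
    ((kappa (n + 1) / kappa n) ^ 2 * b) ^ (n + 1) * volume.real K ≤
      kappa (n + 1) * (R * (volume.real K * volume.real (polar K))) ^ (n + 1) := by
  have hk : 0 < kappa (n + 1) := Vale.Agent.P237.Gen.kappa_pos (n + 1)
  have hk0 : 0 < kappa n := Vale.Agent.P237.Gen.kappa_pos n
  obtain ⟨hI, hIt⟩ := suppInt_eq hS
  set P := volume.real (polar K) with hP
  set I := ((n + 1)! : ℝ) * P with hId
  have hI' : suppInt K = ENNReal.ofReal I := by
    rw [hI, hId, ENNReal.ofReal_mul (by positivity), ENNReal.ofReal_natCast, hP,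
      ofReal_measureReal hIt]
  have hI0 : 0 ≤ I := by positivity
  set c := (n ! : ℝ) * b with hcd
  have hc : 0 ≤ c := by positivity
  have hrec' : ∀ S : Set (Fin n → ℝ), SymBody S →
      ENNReal.ofReal c ≤ volume S * suppInt S := fun S hS' => by
    obtain ⟨hJ, hJt⟩ := suppInt_eq hS'
    rw [hJ, ← ofReal_measureReal hS'.compact.measure_lt_top.ne, ← ofReal_measureReal hJt,
      ← ENNReal.ofReal_natCast, ← ENNReal.ofReal_mul (by positivity),
      ← ENNReal.ofReal_mul measureReal_nonneg]
    refine ENNReal.ofReal_le_ofReal ?_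
    rw [hcd]
    have := mul_le_mul_of_nonneg_left (hrec S hS') (Nat.cast_nonneg (n !) : (0 : ℝ) ≤ _)
    linarith
  obtain ⟨r, hr, hball'⟩ := Metric.isOpen_iff.1 isOpen_interior 0 hS.zero_mem_interior
  have hball : ∀ x, nm x ≤ r / 2 → x ∈ K := fun x hx => by
    refine interior_subset (hball' (mem_ball_zero_iff.2 ?_))
    refine lt_of_le_of_lt ((pi_norm_le_iff_of_nonneg (nm_nonneg x)).2 fun i => ?_)
      (hx.trans_lt (by linarith))
    rw [Real.norm_eq_abs, ← Real.sqrt_sq_eq_abs]
    exact Real.sqrt_le_sqrt (Finset.single_le_sum (fun i _ => sq_nonneg (x i)) (Finset.mem_univ i))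
  have hR0 : 0 ≤ R := (nm_nonneg _).trans (hR 0 hS.zero_mem)
  have hV : 0 < volume.real K := ENNReal.toReal_pos
    (Measure.measure_pos_of_nonempty_interior _ hS.interior_nonempty).ne'
    hS.compact.measure_lt_top.ne
  set ρ := (volume.real K / kappa (n + 1)) ^ (((n + 1 : ℕ) : ℝ)⁻¹) with hρd
  have hρ : 0 < ρ := by positivity
  have hρn : ρ ^ (n + 1) * kappa (n + 1) = volume.real K := by
    rw [hρd, Real.rpow_inv_natCast_pow (by positivity) (Nat.succ_ne_zero n),
      div_mul_cancel₀ _ hk.ne']
  have hvol : volume K = ENNReal.ofReal (ρ ^ (n + 1) * kappa (n + 1)) := by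
    rw [hρn, ofReal_measureReal hS.compact.measure_lt_top.ne]
  set G := ((n : ℝ) + 1) * kappa (n + 1) / kappa n with hG
  set B := (n : ℝ) * (((n : ℝ) + 1) * kappa (n + 1) * ρ ^ n / n) with hB
  set Q := 2 * R * I with hQ
  have hBe : B = ((n : ℝ) + 1) * kappa (n + 1) * ρ ^ n := by
    rw [hB]; field_simp
  have hB0 : 0 < B := by rw [hBe]; positivity
  -- both parameters to zero
  have hlim : ∀ μ, 0 < μ → 4 * Real.sqrt c * G ≤ μ * (2 * B) + Q / μ := by
    intro μ hμ
    have h1 : ∀ η ∈ Ioo (0 : ℝ) 1,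
        4 * Real.sqrt c * G ≤ μ * (2 / (1 - η ^ 2) * B) + Q / μ := by
      intro η hη
      have hl : Tendsto (fun ε : ℝ => 2 * Real.sqrt (4 * (1 - ε / (r / 2)) ^ n * c) * G)
          (𝓝[>] 0) (𝓝 (4 * Real.sqrt c * G)) := by
        refine (Continuous.tendsto' (by fun_prop) 0 _ ?_).mono_left nhdsWithin_le_nhds
        rw [zero_div, sub_zero, one_pow, mul_one, Real.sqrt_mul (by norm_num),
          show Real.sqrt 4 = 2 by rw [show (4 : ℝ) = 2 ^ 2 by norm_num, Real.sqrt_sq two_pos.le]]
        ring
      have hr' : Tendsto (fun ε : ℝ => μ * (2 / (1 - η ^ 2) * B +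
          G * (kappa (n + 1) * ε ^ n / η ^ (n + 1))) + Q / μ)
          (𝓝[>] 0) (𝓝 (μ * (2 / (1 - η ^ 2) * B) + Q / μ)) := by
        refine (Continuous.tendsto' (by fun_prop) 0 _ ?_).mono_left nhdsWithin_le_nhds
        simp [zero_pow (show n ≠ 0 by omega)]
      refine le_of_tendsto_of_tendsto hl hr' ?_
      filter_upwards [Ioo_mem_nhdsGT (show (0 : ℝ) < r / 2 by linarith)] with ε hε
      have := approx_bound hn hS hR0 hball hR hc hI' hI0 hρ hvol hrec' hε.1 hε.2 hη.1 hη.2 hμ
      simp only [B, G, Q, ← mul_assoc] at this ⊢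
      exact this
    have hr' : Tendsto (fun η : ℝ => μ * (2 / (1 - η ^ 2) * B) + Q / μ)
        (𝓝[>] 0) (𝓝 (μ * (2 * B) + Q / μ)) := by
      have : ContinuousAt (fun η : ℝ => μ * (2 / (1 - η ^ 2) * B) + Q / μ) 0 := by
        refine ((continuousAt_const.mul ((continuousAt_const.div (by fun_prop) (by norm_num)).mul
          continuousAt_const)).add continuousAt_const)
      simpa using this.tendsto.mono_left nhdsWithin_le_nhds
    refine le_of_tendsto_of_tendsto tendsto_const_nhds hr' ?_
    filter_upwards [Ioo_mem_nhdsGT (zero_lt_one' ℝ)] with η hη using h1 η hη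
  have hP0 : 0 ≤ P := measureReal_nonneg
  have hQ0 : 0 ≤ Q := by positivity
  -- the best parameter
  have hmain : c * G ^ 2 ≤ B * (R * I) := by
    rcases hQ0.eq_or_lt with hq | hq
    · have h := le_of_tendsto_of_tendsto (f := fun _ : ℝ => 4 * Real.sqrt c * G)
        (g := fun μ => μ * (2 * B)) (b := 𝓝[>] (0 : ℝ)) tendsto_const_nhds
        ((Continuous.tendsto' (by fun_prop) 0 0 (by simp)).mono_left nhdsWithin_le_nhds)
        (by filter_upwards [self_mem_nhdsWithin] with μ hμ
            have := hlim μ hμ; rw [← hq, zero_div, add_zero] at this; exact this)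
      have hsc : Real.sqrt c * G ≤ 0 := by linarith
      have : c * G ^ 2 ≤ 0 := by
        have h0 : 0 ≤ Real.sqrt c * G := by positivity
        have e : c * G ^ 2 = (Real.sqrt c * G) ^ 2 := by rw [mul_pow, Real.sq_sqrt hc]
        rw [e, le_antisymm hsc h0]; norm_num
      exact this.trans (by positivity)
    · set t := Real.sqrt (2 * B * Q) with ht
      have ht0 : 0 < t := by positivity
      have h := hlim (t / (2 * B)) (by positivity)
      have e : t / (2 * B) * (2 * B) + Q / (t / (2 * B)) = 2 * t := by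
        rw [div_mul_cancel₀ _ (by positivity), div_div_eq_mul_div]
        field_simp
        rw [ht, Real.sq_sqrt (by positivity)]
        ring
      rw [e] at h
      have h2 := pow_le_pow_left₀ (by positivity) h 2
      rw [mul_pow, mul_pow, Real.sq_sqrt hc, mul_pow, ht, Real.sq_sqrt (by positivity), hQ] at h2
      nlinarith
  -- rearrange
  have hG2 : (kappa (n + 1) / kappa n) ^ 2 * b * ρ ≤ R * (volume.real K * P) := by
    have e : ((n + 1)! : ℝ) = ((n : ℝ) + 1) * n ! := by
      rw [Nat.factorial_succ]; push_cast; ring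
    rw [hG, hcd, hId, hBe, e] at hmain
    have hpos : (0 : ℝ) < ((n : ℝ) + 1) ^ 2 * n ! := by positivity
    have h3 : (kappa (n + 1) / kappa n) ^ 2 * b ≤ kappa (n + 1) * ρ ^ n * R * P := by
      refine le_of_mul_le_mul_left ?_ hpos
      rw [div_pow] at *
      calc _ = (n ! : ℝ) * b * ((((n : ℝ) + 1) * kappa (n + 1)) / kappa n) ^ 2 := by
            rw [div_pow, mul_pow]; ring
        _ ≤ _ := by
            refine le_trans ?_ (hmain.trans (le_of_eq (by ring)))
            rw [div_pow]
    calc _ ≤ kappa (n + 1) * ρ ^ n * R * P * ρ := mul_le_mul_of_nonneg_right h3 hρ.le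
      _ = R * ((ρ ^ (n + 1) * kappa (n + 1)) * P) := by ring
      _ = _ := by rw [hρn]
  calc _ = kappa (n + 1) * ((kappa (n + 1) / kappa n) ^ 2 * b * ρ) ^ (n + 1) := by
        rw [← hρn]; ring
    _ ≤ _ := mul_le_mul_of_nonneg_left
        (pow_le_pow_left₀ (by positivity) hG2 (n + 1)) hk.le

end Vale.Agent.P248.Universal
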